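import Vale.Agent.P154.AF.D.S501652D

set_option maxRecDepth 100000
set_option linter.defProp false
set_option linter.style.longLine false

namespace Vale.Agent.P154.AF.S501652

open Ck

def p28 : chkZ 501652 326555 pool (.hs (.hx (.hs (.lf 22) (.lf 16)) (.hs (.lf 16) (.lf 16))) (.hx (.hs (.lf 16) (.lf 16)) (.hs (.lf 16) (.hx (.lf 22) (.lf 22))))) 3797 4068 1933 2416 = true := by decide +kernel
def p29 : chkZ 501652 326555 pool (.hs (.hx (.hs (.hx (.lf 22) (.lf 22)) (.hx (.lf 22) (.lf 22))) (.hx (.hs (.lf 22) (.lf 22)) (.hs (.lf 22) (.lf 22)))) (.hx (.hs (.hx (.lf 22) (.lf 22)) (.hx (.lf 22) (.lf 22))) (.hx (.hs (.lf 22) (.lf 22)) (.hs (.lf 22) (.lf 22))))) 3797 4068 2416 2900 = true := by decide +kernel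
def p30 : chkZ 501652 326555 pool (.hs (.hx (.hs (.hx (.lf 32) (.lf 32)) (.hx (.lf 32) (.lf 32))) (.hs (.hx (.lf 22) (.lf 22)) (.hx (.lf 22) (.lf 22)))) (.hx (.hs (.hx (.lf 32) (.lf 32)) (.hx (.lf 32) (.lf 22))) (.hs (.hx (.lf 22) (.lf 22)) (.hx (.lf 22) (.lf 22))))) 4068 4340 1933 2416 = true := by decide +kernel
def p31 : chkZ 501652 326555 pool (.hs (.hx (.hx (.hs (.lf 22) (.lf 22)) (.hs (.lf 22) (.lf 22))) (.hx (.hs (.lf 22) (.lf 22)) (.hs (.lf 22) (.lf 22)))) (.hx (.hx (.hs (.lf 22) (.lf 22)) (.hs (.lf 22) (.lf 22))) (.hx (.hs (.lf 22) (.lf 22)) (.hs (.hs (.lf 22) (.lf 22)) (.hs (.lf 22) (.lf 22)))))) 4068 4340 2416 2900 = true := by decide +kernel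
def p32 : chkZ 501652 326555 pool (.hs (.hx (.hs (.hx (.lf 22) (.lf 22)) (.hx (.lf 16) (.lf 16))) (.hs (.hx (.lf 22) (.lf 16)) (.hx (.lf 16) (.lf 16)))) (.hx (.hs (.hx (.lf 16) (.lf 16)) (.hx (.lf 16) (.lf 16))) (.hs (.hx (.lf 16) (.lf 16)) (.hx (.lf 16) (.lf 16))))) 2170 2712 2900 3383 = true := by decide +kernel
def p33 : chkZ 501652 326555 pool (.hs (.hx (.hs (.lf 16) (.lf 16)) (.hs (.hx (.lf 22) (.lf 22)) (.hx (.lf 16) (.lf 16)))) (.hx (.hs (.lf 16) (.lf 16)) (.hs (.hx (.lf 16) (.lf 16)) (.hx (.lf 16) (.lf 16))))) 2170 2712 3383 3625 = true := by decide +kernel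
def p34 : chkZ 501652 326555 pool (.hs (.hx (.hs (.hx (.lf 22) (.lf 16)) (.hx (.lf 16) (.lf 16))) (.hx (.hs (.lf 16) (.lf 16)) (.hs (.hx (.lf 22) (.lf 22)) (.hx (.lf 16) (.lf 16))))) (.hx (.hs (.hx (.lf 16) (.lf 16)) (.hx (.lf 16) (.lf 16))) (.hx (.hs (.lf 16) (.lf 16)) (.hs (.hx (.lf 16) (.lf 16)) (.hx (.lf 16) (.lf 16)))))) 2170 2712 3625 3867 = true := by decide +kernel
def p35 : chkZ 501652 326555 pool (.hx (.hs (.hx (.hs (.lf 22) (.lf 22)) (.hs (.lf 22) (.lf 22))) (.hx (.hs (.lf 22) (.lf 22)) (.hs (.lf 22) (.lf 22)))) (.hs (.hx (.hs (.lf 22) (.lf 22)) (.hs (.lf 16) (.lf 16))) (.hx (.hs (.lf 22) (.lf 22)) (.hs (.lf 16) (.lf 16))))) 2712 2983 2900 3383 = true := by decide +kernel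
def p36 : chkZ 501652 326555 pool (.hx (.hs (.hs (.hx (.lf 22) (.lf 22)) (.hx (.lf 22) (.lf 22))) (.hs (.hx (.lf 22) (.lf 22)) (.hx (.lf 22) (.lf 22)))) (.hs (.hx (.hs (.lf 22) (.lf 22)) (.hs (.lf 16) (.lf 16))) (.hx (.hs (.lf 22) (.lf 16)) (.hs (.lf 16) (.lf 16))))) 2983 3255 2900 3383 = true := by decide +kernel
def p37 : chkZ 501652 326555 pool (.hs (.hs (.hx (.hs (.lf 16) (.lf 16)) (.hx (.hs (.lf 22) (.lf 22)) (.hs (.lf 22) (.lf 22)))) (.hx (.hs (.lf 16) (.lf 16)) (.hx (.hs (.lf 22) (.lf 22)) (.hs (.lf 22) (.lf 22))))) (.hs (.hx (.hs (.lf 16) (.lf 16)) (.hs (.hx (.lf 22) (.lf 22)) (.hx (.lf 22) (.lf 22)))) (.hx (.hs (.lf 16) (.lf 16)) (.hs (.hx (.lf 22) (.lf 22)) (.hx (.lf 22) (.lf 22)))))) 2712 3255 3383 3625 = true := by decide +kernel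
def p38 : chkZ 501652 326555 pool (.hx (.hs (.hx (.hs (.lf 22) (.lf 22)) (.hs (.lf 16) (.lf 16))) (.hx (.hs (.lf 22) (.lf 22)) (.hs (.lf 16) (.lf 16)))) (.hs (.hx (.hs (.lf 16) (.lf 16)) (.hx (.hs (.lf 22) (.lf 22)) (.hs (.lf 22) (.lf 22)))) (.hx (.hs (.lf 16) (.lf 16)) (.hx (.hs (.lf 22) (.lf 22)) (.hs (.lf 22) (.lf 22)))))) 2712 2983 3625 3867 = true := by decide +kernel
def p39 : chkZ 501652 326555 pool (.hx (.hs (.hx (.hs (.lf 22) (.lf 22)) (.hs (.lf 16) (.lf 16))) (.hx (.hs (.lf 22) (.lf 16)) (.hs (.lf 16) (.lf 16)))) (.hs (.hx (.hs (.lf 16) (.lf 16)) (.hs (.hx (.lf 22) (.lf 22)) (.hx (.lf 22) (.lf 22)))) (.hx (.hs (.lf 16) (.lf 16)) (.hs (.hx (.lf 22) (.lf 22)) (.hx (.lf 22) (.lf 22)))))) 2983 3255 3625 3867 = true := by decide +kernel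
def p40 : chkZ 501652 326555 pool (.hx (.hs (.hx (.hs (.lf 22) (.lf 22)) (.hs (.lf 22) (.lf 22))) (.hx (.hs (.lf 22) (.lf 22)) (.hs (.lf 22) (.lf 22)))) (.hs (.hx (.hs (.lf 16) (.lf 16)) (.hs (.lf 16) (.lf 16))) (.hx (.hs (.lf 16) (.lf 16)) (.hs (.lf 16) (.lf 16))))) 3255 3526 2900 3383 = true := by decide +kernel
def p41 : chkZ 501652 326555 pool (.hx (.hs (.hx (.hs (.lf 22) (.lf 22)) (.hs (.lf 22) (.lf 22))) (.hx (.hs (.lf 22) (.lf 22)) (.hs (.lf 22) (.lf 22)))) (.hs (.hx (.hs (.lf 16) (.lf 16)) (.hs (.lf 16) (.lf 16))) (.hx (.hs (.lf 16) (.lf 16)) (.hs (.lf 16) (.lf 16))))) 3526 3797 2900 3383 = true := by decide +kernel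
def p42 : chkZ 501652 326555 pool (.hx (.hs (.hs (.hx (.lf 22) (.lf 22)) (.hx (.lf 22) (.lf 16))) (.hs (.hx (.lf 22) (.lf 16)) (.hx (.lf 22) (.hx (.lf 32) (.lf 22))))) (.hs (.hx (.hs (.lf 16) (.lf 16)) (.hs (.lf 16) (.hx (.lf 22) (.lf 22)))) (.hx (.hs (.hx (.lf 22) (.lf 22)) (.hx (.lf 22) (.lf 22))) (.hs (.hx (.lf 22) (.lf 22)) (.hx (.lf 22) (.lf 22)))))) 3797 4068 2900 3383 = true := by decide +kernel
def p43 : chkZ 501652 326555 pool (.hs (.hx (.hs (.hs (.lf 22) (.lf 22)) (.hs (.lf 22) (.lf 22))) (.hs (.hx (.lf 22) (.lf 22)) (.hx (.lf 22) (.lf 22)))) (.hx (.hs (.hx (.lf 32) (.lf 22)) (.hx (.lf 22) (.lf 22))) (.hs (.hx (.lf 22) (.lf 22)) (.hx (.lf 22) (.lf 22))))) 4068 4340 2900 3141 = true := by decide +kernel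
def p44 : chkZ 501652 326555 pool (.hs (.hx (.hs (.hx (.lf 22) (.lf 22)) (.hx (.lf 22) (.lf 22))) (.hs (.hx (.lf 22) (.lf 22)) (.hx (.lf 22) (.lf 22)))) (.hx (.hs (.hx (.lf 22) (.lf 22)) (.hx (.lf 22) (.lf 22))) (.hs (.hx (.lf 22) (.lf 22)) (.hx (.lf 22) (.lf 22))))) 4068 4340 3141 3383 = true := by decide +kernel
def p45 : chkZ 501652 326555 pool (.hs (.hx (.hs (.hx (.lf 32) (.lf 22)) (.hx (.lf 32) (.lf 22))) (.hx (.hs (.lf 22) (.lf 22)) (.hs (.lf 22) (.lf 22)))) (.hx (.hx (.hs (.lf 22) (.lf 22)) (.hs (.lf 22) (.lf 22))) (.hx (.hs (.lf 22) (.lf 22)) (.hs (.lf 22) (.lf 22))))) 3255 3526 3383 3625 = true := by decide +kernel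
def p46 : chkZ 501652 326555 pool (.hs (.hx (.hx (.hs (.lf 22) (.lf 22)) (.hs (.lf 22) (.lf 22))) (.hx (.hs (.lf 22) (.lf 22)) (.hs (.lf 22) (.lf 22)))) (.hx (.hs (.hx (.lf 22) (.lf 22)) (.hx (.lf 22) (.lf 22))) (.hs (.hx (.lf 22) (.lf 22)) (.hx (.lf 22) (.lf 22))))) 3526 3797 3383 3625 = true := by decide +kernel
def p47 : chkZ 501652 326555 pool (.hx (.hs (.hx (.hs (.lf 16) (.lf 16)) (.hs (.lf 16) (.lf 16))) (.hx (.hs (.lf 16) (.lf 16)) (.hs (.lf 16) (.lf 16)))) (.hs (.hx (.hx (.hs (.lf 32) (.lf 22)) (.hs (.lf 22) (.lf 22))) (.hx (.hs (.lf 22) (.lf 22)) (.hs (.lf 22) (.lf 22)))) (.hx (.hx (.hs (.lf 22) (.lf 22)) (.hs (.lf 22) (.lf 22))) (.hx (.hs (.lf 22) (.lf 22)) (.hs (.lf 22) (.lf 22)))))) 3255 3526 3625 3867 = true := by decide +kernel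
def p48 : chkZ 501652 326555 pool (.hx (.hs (.hx (.hs (.lf 16) (.lf 16)) (.hs (.lf 16) (.lf 16))) (.hx (.hs (.lf 16) (.lf 16)) (.hs (.lf 16) (.lf 16)))) (.hs (.hx (.hx (.hs (.lf 22) (.lf 22)) (.hs (.lf 22) (.lf 22))) (.hx (.hs (.lf 22) (.lf 22)) (.hs (.lf 22) (.lf 22)))) (.hx (.hx (.hs (.lf 22) (.lf 22)) (.hs (.lf 22) (.lf 22))) (.hx (.hs (.lf 22) (.lf 22)) (.hs (.lf 22) (.lf 16)))))) 3526 3797 3625 3867 = true := by decide +kernel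
def p49 : chkZ 501652 326555 pool (.hs (.hx (.hs (.hx (.lf 22) (.lf 22)) (.hx (.lf 22) (.lf 22))) (.hs (.hx (.lf 22) (.lf 22)) (.hx (.lf 22) (.lf 22)))) (.hx (.hs (.hx (.lf 22) (.lf 22)) (.hx (.lf 22) (.lf 22))) (.hs (.hx (.lf 22) (.lf 22)) (.hx (.lf 22) (.lf 22))))) 3797 4068 3383 3625 = true := by decide +kernel
def p50 : chkZ 501652 326555 pool (.hx (.hs (.hx (.lf 22) (.lf 22)) (.hx (.lf 22) (.lf 22))) (.hs (.hx (.lf 22) (.hx (.lf 22) (.lf 22))) (.hx (.hs (.lf 22) (.lf 22)) (.hx (.lf 22) (.lf 22))))) 4068 4204 3383 3625 = true := by decide +kernel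
def p51 : chkZ 501652 326555 pool (.hx (.hs (.hx (.lf 22) (.hs (.lf 22) (.lf 22))) (.hx (.hs (.lf 32) (.lf 22)) (.hs (.lf 22) (.lf 22)))) (.hs (.hx (.hs (.lf 22) (.lf 22)) (.hx (.lf 22) (.lf 22))) (.hx (.hs (.lf 22) (.lf 22)) (.hx (.lf 22) (.lf 22))))) 4204 4340 3383 3625 = true := by decide +kernel
def p52 : chkZ 501652 326555 pool (.hs (.hx (.hs (.lf 16) (.lf 16)) (.hs (.lf 16) (.hx (.lf 22) (.lf 22)))) (.hx (.hs (.lf 16) (.hx (.lf 22) (.lf 22))) (.hs (.hx (.lf 22) (.lf 22)) (.hx (.lf 22) (.lf 22))))) 3797 4068 3625 3746 = true := by decide +kernel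
def p53 : chkZ 501652 326555 pool (.hs (.hx (.hs (.hx (.lf 22) (.lf 22)) (.hx (.lf 22) (.lf 22))) (.hx (.hs (.lf 22) (.lf 22)) (.hs (.lf 16) (.lf 16)))) (.hx (.hs (.hx (.lf 22) (.lf 22)) (.hx (.lf 22) (.lf 22))) (.hs (.hx (.lf 22) (.lf 16)) (.hx (.lf 22) (.lf 16))))) 3797 4068 3746 3867 = true := by decide +kernel
def p54 : chkZ 501652 326555 pool (.hs (.hx (.hs (.hx (.lf 22) (.lf 22)) (.hx (.lf 22) (.lf 22))) (.hs (.hx (.lf 22) (.lf 22)) (.hx (.lf 22) (.lf 22)))) (.hx (.hs (.hx (.lf 22) (.lf 22)) (.hx (.lf 22) (.lf 22))) (.hs (.hx (.lf 22) (.lf 22)) (.hx (.lf 22) (.lf 22))))) 4068 4340 3625 3746 = true := by decide +kernel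
def p55 : chkZ 501652 326555 pool (.hs (.hx (.hs (.hx (.lf 22) (.lf 22)) (.hx (.lf 22) (.lf 22))) (.hs (.hx (.lf 22) (.hx (.lf 22) (.lf 22))) (.hx (.lf 22) (.hx (.lf 22) (.lf 22))))) (.hx (.hs (.hx (.lf 22) (.lf 22)) (.hx (.lf 22) (.lf 22))) (.hs (.hx (.lf 22) (.hx (.lf 22) (.lf 22))) (.hx (.hs (.lf 22) (.lf 22)) (.hx (.lf 22) (.lf 22)))))) 4068 4340 3746 3867 = true := by decide +kernel

end Vale.Agent.P154.AF.S501652
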