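import Vale.Agent.P154.AF.D.S501652P0
import Vale.Agent.P154.AF.D.S501652P1
import Vale.Agent.P154.AF.D.S501652C

set_option maxRecDepth 100000
set_option linter.defProp false
set_option linter.style.longLine false

namespace Vale.Agent.P154.AF.S501652

open Ck

theorem pw : PW 501652 pool 0 4340 0 3867 :=
 (pw_hx (pw_hs (pw_hs (Ck.pwS (by norm_num) (by norm_num) (by norm_num) (by norm_num) p0)
 (pw_hs (Ck.pwS (by norm_num) (by norm_num) (by norm_num) (by norm_num) p1)
 (Ck.pwS (by norm_num) (by norm_num) (by norm_num) (by norm_num) p2)))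
 (pw_hs (pw_hs (Ck.pwS (by norm_num) (by norm_num) (by norm_num) (by norm_num) p3)
 (pw_hs (Ck.pwS (by norm_num) (by norm_num) (by norm_num) (by norm_num) p4)
 (Ck.pwS (by norm_num) (by norm_num) (by norm_num) (by norm_num) p5)))
 (pw_hs (pw_hs (Ck.pwS (by norm_num) (by norm_num) (by norm_num) (by norm_num) p6)
 (Ck.pwS (by norm_num) (by norm_num) (by norm_num) (by norm_num) p7))
 (pw_hs (Ck.pwS (by norm_num) (by norm_num) (by norm_num) (by norm_num) p8)
 (pw_hx (Ck.pwS (by norm_num) (by norm_num) (by norm_num) (by norm_num) p9)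
 (Ck.pwS (by norm_num) (by norm_num) (by norm_num) (by norm_num) p10))))))
 (pw_hs (pw_hs (pw_hs (pw_hs (pw_hx (Ck.pwS (by norm_num) (by norm_num) (by norm_num) (by norm_num) p11)
 (pw_hs (Ck.pwS (by norm_num) (by norm_num) (by norm_num) (by norm_num) p12)
 (Ck.pwS (by norm_num) (by norm_num) (by norm_num) (by norm_num) p13)))
 (pw_hx (Ck.pwS (by norm_num) (by norm_num) (by norm_num) (by norm_num) p14)
 (Ck.pwS (by norm_num) (by norm_num) (by norm_num) (by norm_num) p15)))
 (pw_hx (Ck.pwS (by norm_num) (by norm_num) (by norm_num) (by norm_num) p16)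
 (Ck.pwS (by norm_num) (by norm_num) (by norm_num) (by norm_num) p17)))
 (pw_hx (Ck.pwS (by norm_num) (by norm_num) (by norm_num) (by norm_num) p18)
 (pw_hs (Ck.pwS (by norm_num) (by norm_num) (by norm_num) (by norm_num) p19)
 (pw_hx (Ck.pwS (by norm_num) (by norm_num) (by norm_num) (by norm_num) p20)
 (pw_hx (Ck.pwS (by norm_num) (by norm_num) (by norm_num) (by norm_num) p21)
 (Ck.pwS (by norm_num) (by norm_num) (by norm_num) (by norm_num) p22))))))
 (pw_hx (pw_hs (pw_hs (Ck.pwS (by norm_num) (by norm_num) (by norm_num) (by norm_num) p23)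
 (pw_hs (Ck.pwS (by norm_num) (by norm_num) (by norm_num) (by norm_num) p24)
 (Ck.pwS (by norm_num) (by norm_num) (by norm_num) (by norm_num) p25)))
 (pw_hs (pw_hs (Ck.pwS (by norm_num) (by norm_num) (by norm_num) (by norm_num) p26)
 (Ck.pwS (by norm_num) (by norm_num) (by norm_num) (by norm_num) p27))
 (pw_hs (pw_hx (Ck.pwS (by norm_num) (by norm_num) (by norm_num) (by norm_num) p28)
 (Ck.pwS (by norm_num) (by norm_num) (by norm_num) (by norm_num) p29))
 (pw_hx (Ck.pwS (by norm_num) (by norm_num) (by norm_num) (by norm_num) p30)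
 (Ck.pwS (by norm_num) (by norm_num) (by norm_num) (by norm_num) p31)))))
 (pw_hs (pw_hs (pw_hx (Ck.pwS (by norm_num) (by norm_num) (by norm_num) (by norm_num) p32)
 (pw_hx (Ck.pwS (by norm_num) (by norm_num) (by norm_num) (by norm_num) p33)
 (Ck.pwS (by norm_num) (by norm_num) (by norm_num) (by norm_num) p34)))
 (pw_hx (pw_hs (Ck.pwS (by norm_num) (by norm_num) (by norm_num) (by norm_num) p35)
 (Ck.pwS (by norm_num) (by norm_num) (by norm_num) (by norm_num) p36))
 (pw_hx (Ck.pwS (by norm_num) (by norm_num) (by norm_num) (by norm_num) p37)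
 (pw_hs (Ck.pwS (by norm_num) (by norm_num) (by norm_num) (by norm_num) p38)
 (Ck.pwS (by norm_num) (by norm_num) (by norm_num) (by norm_num) p39)))))
 (pw_hx (pw_hs (pw_hs (Ck.pwS (by norm_num) (by norm_num) (by norm_num) (by norm_num) p40)
 (Ck.pwS (by norm_num) (by norm_num) (by norm_num) (by norm_num) p41))
 (pw_hs (Ck.pwS (by norm_num) (by norm_num) (by norm_num) (by norm_num) p42)
 (pw_hx (Ck.pwS (by norm_num) (by norm_num) (by norm_num) (by norm_num) p43)
 (Ck.pwS (by norm_num) (by norm_num) (by norm_num) (by norm_num) p44))))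
 (pw_hs (pw_hx (pw_hs (Ck.pwS (by norm_num) (by norm_num) (by norm_num) (by norm_num) p45)
 (Ck.pwS (by norm_num) (by norm_num) (by norm_num) (by norm_num) p46))
 (pw_hs (Ck.pwS (by norm_num) (by norm_num) (by norm_num) (by norm_num) p47)
 (Ck.pwS (by norm_num) (by norm_num) (by norm_num) (by norm_num) p48)))
 (pw_hx (pw_hs (Ck.pwS (by norm_num) (by norm_num) (by norm_num) (by norm_num) p49)
 (pw_hs (Ck.pwS (by norm_num) (by norm_num) (by norm_num) (by norm_num) p50)
 (Ck.pwS (by norm_num) (by norm_num) (by norm_num) (by norm_num) p51)))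
 (pw_hs (pw_hx (Ck.pwS (by norm_num) (by norm_num) (by norm_num) (by norm_num) p52)
 (Ck.pwS (by norm_num) (by norm_num) (by norm_num) (by norm_num) p53))
 (pw_hx (Ck.pwS (by norm_num) (by norm_num) (by norm_num) (by norm_num) p54)
 (Ck.pwS (by norm_num) (by norm_num) (by norm_num) (by norm_num) p55))))))))))

theorem big0 : Big (lamOf 501652) (fun s => Real.exp (-(((4556 : ℕ) : ℝ) / 2 ^ 10 * (1 - s)))) (((163 : ℕ) : ℝ) / 2 ^ 10) :=
  bigP (by norm_num) (by norm_num) pw k0 (fun _ hc => hc)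


end Vale.Agent.P154.AF.S501652
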