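import Vale.Agent.P154.AF.D.S518127P0
import Vale.Agent.P154.AF.D.S518127P1
import Vale.Agent.P154.AF.D.S518127C

set_option maxRecDepth 100000
set_option linter.defProp false
set_option linter.style.longLine false

namespace Vale.Agent.P154.AF.S518127

open Ck

theorem pw : PW 518127 pool 0 4340 0 3867 :=
 (pw_hx (pw_hs (pw_hs (Ck.pwS (by norm_num) (by norm_num) (by norm_num) (by norm_num) p0)
 (pw_hs (Ck.pwS (by norm_num) (by norm_num) (by norm_num) (by norm_num) p1)
 (Ck.pwS (by norm_num) (by norm_num) (by norm_num) (by norm_num) p2)))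
 (pw_hs (pw_hs (pw_hs (Ck.pwS (by norm_num) (by norm_num) (by norm_num) (by norm_num) p3)
 (Ck.pwS (by norm_num) (by norm_num) (by norm_num) (by norm_num) p4))
 (pw_hs (Ck.pwS (by norm_num) (by norm_num) (by norm_num) (by norm_num) p5)
 (Ck.pwS (by norm_num) (by norm_num) (by norm_num) (by norm_num) p6)))
 (pw_hs (pw_hs (Ck.pwS (by norm_num) (by norm_num) (by norm_num) (by norm_num) p7)
 (Ck.pwS (by norm_num) (by norm_num) (by norm_num) (by norm_num) p8))
 (pw_hs (Ck.pwS (by norm_num) (by norm_num) (by norm_num) (by norm_num) p9)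
 (pw_hx (Ck.pwS (by norm_num) (by norm_num) (by norm_num) (by norm_num) p10)
 (Ck.pwS (by norm_num) (by norm_num) (by norm_num) (by norm_num) p11))))))
 (pw_hs (pw_hs (pw_hs (pw_hs (pw_hx (Ck.pwS (by norm_num) (by norm_num) (by norm_num) (by norm_num) p12)
 (pw_hs (Ck.pwS (by norm_num) (by norm_num) (by norm_num) (by norm_num) p13)
 (Ck.pwS (by norm_num) (by norm_num) (by norm_num) (by norm_num) p14)))
 (pw_hx (Ck.pwS (by norm_num) (by norm_num) (by norm_num) (by norm_num) p15)
 (Ck.pwS (by norm_num) (by norm_num) (by norm_num) (by norm_num) p16)))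
 (pw_hx (Ck.pwS (by norm_num) (by norm_num) (by norm_num) (by norm_num) p17)
 (Ck.pwS (by norm_num) (by norm_num) (by norm_num) (by norm_num) p18)))
 (pw_hx (pw_hs (Ck.pwS (by norm_num) (by norm_num) (by norm_num) (by norm_num) p19)
 (Ck.pwS (by norm_num) (by norm_num) (by norm_num) (by norm_num) p20))
 (pw_hs (pw_hs (Ck.pwS (by norm_num) (by norm_num) (by norm_num) (by norm_num) p21)
 (Ck.pwS (by norm_num) (by norm_num) (by norm_num) (by norm_num) p22))
 (pw_hx (Ck.pwS (by norm_num) (by norm_num) (by norm_num) (by norm_num) p23)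
 (pw_hx (Ck.pwS (by norm_num) (by norm_num) (by norm_num) (by norm_num) p24)
 (Ck.pwS (by norm_num) (by norm_num) (by norm_num) (by norm_num) p25))))))
 (pw_hx (pw_hs (pw_hs (pw_hs (Ck.pwS (by norm_num) (by norm_num) (by norm_num) (by norm_num) p26)
 (Ck.pwS (by norm_num) (by norm_num) (by norm_num) (by norm_num) p27))
 (pw_hs (Ck.pwS (by norm_num) (by norm_num) (by norm_num) (by norm_num) p28)
 (Ck.pwS (by norm_num) (by norm_num) (by norm_num) (by norm_num) p29)))
 (pw_hs (pw_hs (Ck.pwS (by norm_num) (by norm_num) (by norm_num) (by norm_num) p30)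
 (Ck.pwS (by norm_num) (by norm_num) (by norm_num) (by norm_num) p31))
 (pw_hs (pw_hx (Ck.pwS (by norm_num) (by norm_num) (by norm_num) (by norm_num) p32)
 (Ck.pwS (by norm_num) (by norm_num) (by norm_num) (by norm_num) p33))
 (pw_hx (Ck.pwS (by norm_num) (by norm_num) (by norm_num) (by norm_num) p34)
 (Ck.pwS (by norm_num) (by norm_num) (by norm_num) (by norm_num) p35)))))
 (pw_hs (pw_hs (pw_hx (pw_hs (Ck.pwS (by norm_num) (by norm_num) (by norm_num) (by norm_num) p36)
 (Ck.pwS (by norm_num) (by norm_num) (by norm_num) (by norm_num) p37))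
 (pw_hx (Ck.pwS (by norm_num) (by norm_num) (by norm_num) (by norm_num) p38)
 (pw_hs (Ck.pwS (by norm_num) (by norm_num) (by norm_num) (by norm_num) p39)
 (Ck.pwS (by norm_num) (by norm_num) (by norm_num) (by norm_num) p40))))
 (pw_hx (pw_hs (Ck.pwS (by norm_num) (by norm_num) (by norm_num) (by norm_num) p41)
 (Ck.pwS (by norm_num) (by norm_num) (by norm_num) (by norm_num) p42))
 (pw_hx (Ck.pwS (by norm_num) (by norm_num) (by norm_num) (by norm_num) p43)
 (pw_hs (Ck.pwS (by norm_num) (by norm_num) (by norm_num) (by norm_num) p44)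
 (Ck.pwS (by norm_num) (by norm_num) (by norm_num) (by norm_num) p45)))))
 (pw_hx (pw_hs (pw_hs (Ck.pwS (by norm_num) (by norm_num) (by norm_num) (by norm_num) p46)
 (Ck.pwS (by norm_num) (by norm_num) (by norm_num) (by norm_num) p47))
 (pw_hs (Ck.pwS (by norm_num) (by norm_num) (by norm_num) (by norm_num) p48)
 (pw_hx (Ck.pwS (by norm_num) (by norm_num) (by norm_num) (by norm_num) p49)
 (Ck.pwS (by norm_num) (by norm_num) (by norm_num) (by norm_num) p50))))
 (pw_hs (pw_hx (pw_hs (Ck.pwS (by norm_num) (by norm_num) (by norm_num) (by norm_num) p51)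
 (Ck.pwS (by norm_num) (by norm_num) (by norm_num) (by norm_num) p52))
 (pw_hs (Ck.pwS (by norm_num) (by norm_num) (by norm_num) (by norm_num) p53)
 (Ck.pwS (by norm_num) (by norm_num) (by norm_num) (by norm_num) p54)))
 (pw_hx (pw_hs (Ck.pwS (by norm_num) (by norm_num) (by norm_num) (by norm_num) p55)
 (pw_hs (Ck.pwS (by norm_num) (by norm_num) (by norm_num) (by norm_num) p56)
 (Ck.pwS (by norm_num) (by norm_num) (by norm_num) (by norm_num) p57)))
 (pw_hs (pw_hx (Ck.pwS (by norm_num) (by norm_num) (by norm_num) (by norm_num) p58)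
 (Ck.pwS (by norm_num) (by norm_num) (by norm_num) (by norm_num) p59))
 (pw_hx (Ck.pwS (by norm_num) (by norm_num) (by norm_num) (by norm_num) p60)
 (Ck.pwS (by norm_num) (by norm_num) (by norm_num) (by norm_num) p61))))))))))

theorem big0 : Big (lamOf 518127) (fun s => Real.exp (-(((4254 : ℕ) : ℝ) / 2 ^ 10 * (1 - s)))) (((163 : ℕ) : ℝ) / 2 ^ 10) :=
  bigP (by norm_num) (by norm_num) pw k0 (fun _ hc => hc)


end Vale.Agent.P154.AF.S518127
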