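import Vale.Agent.P154.AF.D.S524288P0
import Vale.Agent.P154.AF.D.S524288P1
import Vale.Agent.P154.AF.D.S524288P2
import Vale.Agent.P154.AF.D.S524288P3
import Vale.Agent.P154.AF.D.S524288P4
import Vale.Agent.P154.AF.D.S524288P5
import Vale.Agent.P154.AF.D.S524288P6
import Vale.Agent.P154.AF.D.S524288P7
import Vale.Agent.P154.AF.D.S524288C

set_option maxRecDepth 100000
set_option linter.defProp false
set_option linter.style.longLine false

namespace Vale.Agent.P154.AF.S524288

open Ck

theorem pw : PW 524288 pool 0 4340 0 3867 :=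
 (pw_hx (pw_hs (Ck.pwS (by norm_num) (by norm_num) (by norm_num) (by norm_num) p0)
 (pw_hs (pw_hs (Ck.pwS (by norm_num) (by norm_num) (by norm_num) (by norm_num) p1)
 (Ck.pwS (by norm_num) (by norm_num) (by norm_num) (by norm_num) p2))
 (pw_hs (pw_hs (Ck.pwS (by norm_num) (by norm_num) (by norm_num) (by norm_num) p3)
 (Ck.pwS (by norm_num) (by norm_num) (by norm_num) (by norm_num) p4))
 (pw_hs (Ck.pwS (by norm_num) (by norm_num) (by norm_num) (by norm_num) p5)
 (pw_hx (Ck.pwS (by norm_num) (by norm_num) (by norm_num) (by norm_num) p6)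
 (Ck.pwS (by norm_num) (by norm_num) (by norm_num) (by norm_num) p7))))))
 (pw_hs (pw_hs (pw_hs (Ck.pwS (by norm_num) (by norm_num) (by norm_num) (by norm_num) p8)
 (Ck.pwS (by norm_num) (by norm_num) (by norm_num) (by norm_num) p9))
 (pw_hx (Ck.pwS (by norm_num) (by norm_num) (by norm_num) (by norm_num) p10)
 (pw_hx (Ck.pwS (by norm_num) (by norm_num) (by norm_num) (by norm_num) p11)
 (Ck.pwS (by norm_num) (by norm_num) (by norm_num) (by norm_num) p12))))
 (pw_hx (pw_hs (pw_hs (Ck.pwS (by norm_num) (by norm_num) (by norm_num) (by norm_num) p13)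
 (Ck.pwS (by norm_num) (by norm_num) (by norm_num) (by norm_num) p14))
 (pw_hs (pw_hs (Ck.pwS (by norm_num) (by norm_num) (by norm_num) (by norm_num) p15)
 (Ck.pwS (by norm_num) (by norm_num) (by norm_num) (by norm_num) p16))
 (pw_hs (pw_hx (Ck.pwS (by norm_num) (by norm_num) (by norm_num) (by norm_num) p17)
 (Ck.pwS (by norm_num) (by norm_num) (by norm_num) (by norm_num) p18))
 (pw_hx (Ck.pwS (by norm_num) (by norm_num) (by norm_num) (by norm_num) p19)
 (Ck.pwS (by norm_num) (by norm_num) (by norm_num) (by norm_num) p20)))))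
 (pw_hs (pw_hx (pw_hs (Ck.pwS (by norm_num) (by norm_num) (by norm_num) (by norm_num) p21)
 (Ck.pwS (by norm_num) (by norm_num) (by norm_num) (by norm_num) p22))
 (pw_hx (Ck.pwS (by norm_num) (by norm_num) (by norm_num) (by norm_num) p23)
 (pw_hs (Ck.pwS (by norm_num) (by norm_num) (by norm_num) (by norm_num) p24)
 (Ck.pwS (by norm_num) (by norm_num) (by norm_num) (by norm_num) p25))))
 (pw_hx (pw_hs (pw_hs (Ck.pwS (by norm_num) (by norm_num) (by norm_num) (by norm_num) p26)
 (Ck.pwS (by norm_num) (by norm_num) (by norm_num) (by norm_num) p27))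
 (pw_hs (Ck.pwS (by norm_num) (by norm_num) (by norm_num) (by norm_num) p28)
 (pw_hx (Ck.pwS (by norm_num) (by norm_num) (by norm_num) (by norm_num) p29)
 (Ck.pwS (by norm_num) (by norm_num) (by norm_num) (by norm_num) p30))))
 (pw_hs (pw_hx (pw_hs (Ck.pwS (by norm_num) (by norm_num) (by norm_num) (by norm_num) p31)
 (Ck.pwS (by norm_num) (by norm_num) (by norm_num) (by norm_num) p32))
 (pw_hx (Ck.pwS (by norm_num) (by norm_num) (by norm_num) (by norm_num) p33)
 (Ck.pwS (by norm_num) (by norm_num) (by norm_num) (by norm_num) p34)))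
 (pw_hx (pw_hs (Ck.pwS (by norm_num) (by norm_num) (by norm_num) (by norm_num) p35)
 (pw_hs (Ck.pwS (by norm_num) (by norm_num) (by norm_num) (by norm_num) p36)
 (Ck.pwS (by norm_num) (by norm_num) (by norm_num) (by norm_num) p37)))
 (pw_hs (pw_hx (Ck.pwS (by norm_num) (by norm_num) (by norm_num) (by norm_num) p38)
 (Ck.pwS (by norm_num) (by norm_num) (by norm_num) (by norm_num) p39))
 (pw_hx (Ck.pwS (by norm_num) (by norm_num) (by norm_num) (by norm_num) p40)
 (Ck.pwS (by norm_num) (by norm_num) (by norm_num) (by norm_num) p41))))))))))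

theorem big0 : Big (lamOf 524288) (fun s => Real.exp (-(((4142 : ℕ) : ℝ) / 2 ^ 10 * (1 - s)))) (((163 : ℕ) : ℝ) / 2 ^ 10) :=
  bigP (by norm_num) (by norm_num) pw k0 (fun c hc => by
    unfold pool
    simp only [List.mem_append, hc, true_or, or_true])

theorem big1 : Big (lamOf 524288) (fun s => s ^ 4) (((215 : ℕ) : ℝ) / 2 ^ 10) :=
  bigR (by norm_num) (by norm_num) pw k1 (fun c hc => by
    unfold pool
    simp only [List.mem_append, hc, true_or, or_true])


end Vale.Agent.P154.AF.S524288
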