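import Vale.Agent.P154.AF.D.S501652D

set_option maxRecDepth 100000
set_option linter.defProp false
set_option linter.style.longLine false

namespace Vale.Agent.P154.AF.S501652

open Ck

def p0 : chkZ 501652 326555 pool (.hs (.hx (.hs (.lf 16) (.lf 16)) (.hx (.hs (.lf 22) (.lf 16)) (.hs (.lf 16) (.lf 16)))) (.hx (.hs (.hx (.lf 22) (.lf 22)) (.hx (.lf 22) (.lf 16))) (.hx (.hs (.lf 16) (.lf 16)) (.hs (.lf 16) (.lf 16))))) 0 1085 0 1933 = true := by decide +kernel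
def p1 : chkZ 501652 326555 pool (.hx (.hs (.hx (.lf 16) (.lf 16)) (.hx (.lf 16) (.lf 16))) (.hs (.hx (.lf 16) (.lf 16)) (.hx (.lf 16) (.hs (.lf 16) (.lf 16))))) 1085 1627 0 1933 = true := by decide +kernel
def p2 : chkZ 501652 326555 pool (.hs (.hx (.hs (.hx (.lf 22) (.lf 22)) (.hx (.lf 22) (.lf 22))) (.hx (.hs (.lf 16) (.lf 16)) (.hs (.lf 16) (.lf 16)))) (.hx (.hs (.hx (.lf 22) (.lf 22)) (.hx (.lf 22) (.lf 22))) (.hx (.hs (.lf 16) (.lf 16)) (.hs (.lf 16) (.lf 16))))) 1627 2170 0 1933 = true := by decide +kernel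
def p3 : chkZ 501652 326555 pool (.hs (.hx (.hs (.hx (.lf 22) (.lf 22)) (.hx (.lf 16) (.lf 16))) (.hs (.hx (.lf 16) (.lf 16)) (.hx (.lf 16) (.hx (.lf 16) (.lf 16))))) (.hx (.hs (.hx (.lf 16) (.lf 16)) (.hx (.lf 16) (.lf 16))) (.hs (.hx (.lf 16) (.hx (.lf 16) (.lf 16))) (.hx (.lf 16) (.hx (.lf 16) (.lf 16)))))) 2170 2712 0 1933 = true := by decide +kernel
def p4 : chkZ 501652 326555 pool (.hx (.hs (.hx (.hs (.lf 22) (.lf 22)) (.hs (.lf 22) (.lf 22))) (.hx (.hs (.lf 22) (.lf 22)) (.hs (.lf 22) (.lf 22)))) (.hs (.hx (.hs (.lf 16) (.lf 16)) (.hs (.lf 16) (.hx (.lf 32) (.lf 22)))) (.hx (.hs (.lf 16) (.lf 16)) (.hs (.hx (.lf 32) (.lf 22)) (.hx (.lf 32) (.lf 22)))))) 2712 2983 0 1933 = true := by decide +kernel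
def p5 : chkZ 501652 326555 pool (.hx (.hs (.hs (.hx (.lf 22) (.lf 16)) (.hx (.lf 22) (.lf 16))) (.hx (.hs (.lf 22) (.lf 22)) (.hs (.lf 16) (.lf 16)))) (.hs (.hx (.hs (.lf 16) (.lf 16)) (.hs (.hx (.lf 32) (.lf 22)) (.hx (.lf 22) (.lf 22)))) (.hx (.hs (.lf 16) (.lf 16)) (.hs (.hx (.lf 22) (.lf 22)) (.hx (.lf 22) (.lf 22)))))) 2983 3255 0 1933 = true := by decide +kernel
def p6 : chkZ 501652 326555 pool (.hx (.hs (.hx (.hs (.lf 22) (.lf 16)) (.hs (.lf 16) (.lf 16))) (.hx (.hs (.lf 16) (.lf 16)) (.hs (.lf 16) (.lf 16)))) (.hs (.hx (.hs (.lf 16) (.lf 16)) (.hx (.hs (.lf 22) (.lf 22)) (.hs (.lf 22) (.lf 22)))) (.hx (.hs (.lf 16) (.lf 16)) (.hx (.hs (.lf 22) (.lf 22)) (.hs (.lf 22) (.lf 22)))))) 3255 3526 0 1933 = true := by decide +kernel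
def p7 : chkZ 501652 326555 pool (.hx (.hs (.hx (.hs (.lf 16) (.lf 16)) (.hs (.lf 16) (.lf 16))) (.hx (.hs (.lf 16) (.lf 16)) (.hs (.lf 16) (.lf 16)))) (.hx (.hs (.hs (.lf 16) (.lf 16)) (.hs (.lf 16) (.lf 16))) (.hs (.hx (.hs (.lf 22) (.lf 22)) (.hs (.lf 22) (.lf 22))) (.hx (.hs (.lf 22) (.lf 22)) (.hs (.lf 22) (.lf 22)))))) 3526 3797 0 1933 = true := by decide +kernel
def p8 : chkZ 501652 326555 pool (.hx (.hs (.hx (.hs (.lf 16) (.lf 16)) (.hs (.lf 16) (.lf 16))) (.hx (.hs (.lf 16) (.lf 16)) (.hs (.lf 16) (.lf 16)))) (.hx (.hs (.hs (.hx (.lf 22) (.lf 22)) (.hx (.lf 22) (.lf 22))) (.hs (.hx (.lf 22) (.lf 22)) (.hx (.lf 22) (.lf 22)))) (.hs (.hx (.hs (.lf 22) (.lf 22)) (.hs (.lf 22) (.lf 22))) (.hx (.hs (.lf 22) (.lf 22)) (.hs (.lf 22) (.lf 22)))))) 3797 4068 0 1933 = true := by decide +kernel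
def p9 : chkZ 501652 326555 pool (.hs (.hx (.hs (.lf 16) (.hx (.lf 32) (.lf 32))) (.hs (.hx (.lf 32) (.lf 32)) (.hx (.lf 32) (.lf 32)))) (.hx (.hs (.hx (.lf 32) (.lf 32)) (.hx (.lf 32) (.lf 32))) (.hs (.hx (.lf 32) (.lf 32)) (.hx (.lf 32) (.lf 32))))) 4068 4340 0 966 = true := by decide +kernel
def p10 : chkZ 501652 326555 pool (.hx (.hs (.hs (.hx (.lf 22) (.lf 22)) (.hx (.lf 22) (.lf 22))) (.hs (.hx (.lf 22) (.lf 22)) (.hx (.lf 22) (.lf 22)))) (.hs (.hx (.hs (.lf 22) (.lf 22)) (.hs (.lf 22) (.lf 22))) (.hx (.hs (.lf 22) (.lf 22)) (.hs (.hx (.lf 32) (.lf 32)) (.hx (.lf 32) (.lf 32)))))) 4068 4340 966 1933 = true := by decide +kernel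
def p11 : chkZ 501652 326555 pool (.hx (.hx (.lf 22) (.lf 22)) (.hx (.lf 16) (.lf 16))) 0 271 1933 2900 = true := by decide +kernel
def p12 : chkZ 501652 326555 pool (.hs (.hx (.hx (.lf 16) (.hx (.lf 22) (.lf 22))) (.hx (.hx (.lf 16) (.lf 16)) (.hx (.hx (.lf 22) (.lf 22)) (.hx (.lf 16) (.hx (.lf 32) (.lf 22)))))) (.hx (.hx (.lf 16) (.hx (.lf 22) (.lf 22))) (.hx (.hx (.lf 16) (.hx (.lf 32) (.lf 22))) (.hx (.hx (.lf 22) (.lf 22)) (.hx (.lf 16) (.hx (.lf 32) (.lf 22))))))) 0 135 2900 3867 = true := by decide +kernel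
def p13 : chkZ 501652 326555 pool (.hx (.hx (.hx (.lf 32) (.lf 22)) (.hx (.lf 22) (.lf 22))) (.hx (.hx (.lf 16) (.hx (.lf 32) (.lf 22))) (.hx (.hx (.lf 22) (.lf 22)) (.hx (.lf 16) (.hx (.lf 32) (.lf 22)))))) 135 271 2900 3867 = true := by decide +kernel
def p14 : chkZ 501652 326555 pool (.hx (.hx (.lf 22) (.lf 22)) (.hx (.lf 16) (.lf 16))) 271 542 1933 2900 = true := by decide +kernel
def p15 : chkZ 501652 326555 pool (.hs (.hx (.hx (.hx (.lf 32) (.lf 22)) (.hx (.lf 22) (.lf 22))) (.hx (.hx (.lf 16) (.hx (.lf 32) (.lf 22))) (.hx (.hx (.lf 22) (.lf 22)) (.hx (.lf 16) (.hx (.lf 32) (.lf 22)))))) (.hx (.hx (.hx (.lf 32) (.lf 22)) (.hx (.lf 22) (.lf 22))) (.hx (.hx (.lf 16) (.hx (.lf 32) (.lf 22))) (.hx (.hx (.lf 22) (.lf 22)) (.hx (.lf 16) (.hx (.lf 32) (.lf 22))))))) 271 542 2900 3867 = true := by decide +kernel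
def p16 : chkZ 501652 326555 pool (.hx (.hs (.hx (.lf 22) (.lf 22)) (.hx (.lf 22) (.lf 22))) (.hx (.hs (.lf 16) (.lf 16)) (.hs (.lf 16) (.lf 16)))) 542 1085 1933 2900 = true := by decide +kernel
def p17 : chkZ 501652 326555 pool (.hs (.hx (.hx (.hx (.lf 22) (.lf 22)) (.hx (.lf 22) (.lf 16))) (.hx (.hx (.lf 16) (.hx (.lf 22) (.lf 22))) (.hx (.hx (.lf 22) (.lf 16)) (.hx (.lf 16) (.hx (.lf 22) (.lf 22)))))) (.hx (.hx (.hx (.lf 22) (.lf 22)) (.hx (.lf 22) (.lf 16))) (.hx (.hx (.lf 16) (.hx (.lf 22) (.lf 22))) (.hx (.hx (.lf 16) (.lf 16)) (.hx (.lf 16) (.hx (.lf 22) (.lf 22))))))) 542 1085 2900 3867 = true := by decide +kernel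
def p18 : chkZ 501652 326555 pool (.hs (.hx (.hs (.hx (.lf 16) (.lf 16)) (.hx (.lf 16) (.lf 16))) (.hs (.hx (.lf 16) (.lf 16)) (.hx (.lf 16) (.lf 16)))) (.hx (.hs (.hs (.hx (.lf 22) (.lf 22)) (.hx (.lf 22) (.lf 22))) (.hs (.hx (.lf 22) (.lf 22)) (.hx (.lf 22) (.lf 22)))) (.hs (.hx (.hs (.lf 16) (.lf 16)) (.hs (.lf 16) (.lf 16))) (.hx (.hs (.lf 16) (.lf 16)) (.hs (.lf 16) (.lf 16)))))) 1085 2170 1933 2900 = true := by decide +kernel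
def p19 : chkZ 501652 326555 pool (.hs (.hx (.hx (.hx (.lf 16) (.lf 16)) (.hx (.lf 16) (.lf 16))) (.hx (.hx (.lf 16) (.hx (.lf 16) (.lf 16))) (.hx (.hx (.lf 16) (.lf 16)) (.hx (.lf 16) (.hx (.lf 16) (.lf 16)))))) (.hx (.hx (.hx (.lf 16) (.lf 16)) (.hx (.lf 16) (.lf 16))) (.hx (.hx (.lf 16) (.hx (.lf 16) (.lf 16))) (.hx (.hx (.lf 16) (.lf 16)) (.hx (.lf 16) (.hx (.lf 16) (.lf 16))))))) 1085 1627 2900 3867 = true := by decide +kernel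
def p20 : chkZ 501652 326555 pool (.hs (.hx (.hs (.hx (.lf 22) (.lf 22)) (.hx (.lf 22) (.lf 22))) (.hx (.hs (.lf 22) (.lf 22)) (.hs (.lf 16) (.lf 16)))) (.hx (.hs (.hx (.lf 22) (.lf 22)) (.hx (.lf 22) (.lf 22))) (.hx (.hs (.lf 22) (.lf 22)) (.hs (.lf 16) (.lf 16))))) 1627 2170 2900 3383 = true := by decide +kernel
def p21 : chkZ 501652 326555 pool (.hs (.hx (.hs (.lf 16) (.lf 16)) (.hs (.hx (.lf 22) (.lf 22)) (.hx (.lf 22) (.lf 22)))) (.hx (.hs (.lf 16) (.lf 16)) (.hs (.hx (.lf 22) (.lf 22)) (.hx (.lf 22) (.lf 22))))) 1627 2170 3383 3625 = true := by decide +kernel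
def p22 : chkZ 501652 326555 pool (.hx (.hs (.hx (.hs (.lf 22) (.lf 22)) (.hs (.lf 16) (.lf 16))) (.hx (.hs (.lf 22) (.lf 22)) (.hs (.lf 16) (.lf 16)))) (.hs (.hx (.hs (.lf 16) (.lf 16)) (.hs (.hx (.lf 22) (.lf 22)) (.hx (.lf 22) (.lf 22)))) (.hx (.hs (.lf 16) (.lf 16)) (.hs (.hx (.lf 22) (.lf 22)) (.hx (.lf 22) (.lf 22)))))) 1627 2170 3625 3867 = true := by decide +kernel
def p23 : chkZ 501652 326555 pool (.hs (.hx (.hs (.hx (.lf 22) (.lf 22)) (.hx (.lf 16) (.lf 16))) (.hs (.hx (.lf 16) (.lf 16)) (.hx (.lf 16) (.lf 16)))) (.hx (.hs (.hx (.lf 16) (.lf 16)) (.hx (.lf 16) (.lf 16))) (.hs (.hx (.lf 16) (.lf 16)) (.hx (.lf 16) (.lf 16))))) 2170 2712 1933 2900 = true := by decide +kernel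
def p24 : chkZ 501652 326555 pool (.hx (.hs (.hx (.hs (.lf 22) (.lf 22)) (.hs (.lf 22) (.lf 22))) (.hx (.hs (.lf 22) (.lf 22)) (.hs (.lf 22) (.lf 22)))) (.hs (.hx (.hs (.lf 16) (.lf 16)) (.hs (.lf 16) (.lf 16))) (.hx (.hs (.lf 16) (.lf 16)) (.hs (.lf 16) (.lf 16))))) 2712 2983 1933 2900 = true := by decide +kernel
def p25 : chkZ 501652 326555 pool (.hx (.hs (.hs (.hx (.lf 22) (.lf 22)) (.hx (.lf 22) (.lf 22))) (.hs (.hx (.lf 22) (.lf 22)) (.hx (.lf 22) (.lf 22)))) (.hs (.hx (.hs (.lf 16) (.lf 16)) (.hs (.lf 16) (.lf 16))) (.hx (.hs (.lf 16) (.lf 16)) (.hs (.lf 16) (.lf 16))))) 2983 3255 1933 2900 = true := by decide +kernel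
def p26 : chkZ 501652 326555 pool (.hx (.hs (.hx (.hs (.lf 22) (.lf 22)) (.hs (.lf 16) (.lf 16))) (.hx (.hs (.lf 22) (.lf 22)) (.hs (.lf 16) (.lf 16)))) (.hs (.hx (.hs (.lf 16) (.lf 16)) (.hs (.lf 16) (.lf 16))) (.hx (.hs (.lf 16) (.lf 16)) (.hs (.hx (.lf 22) (.lf 22)) (.hx (.lf 22) (.lf 22)))))) 3255 3526 1933 2900 = true := by decide +kernel
def p27 : chkZ 501652 326555 pool (.hx (.hs (.hx (.hs (.lf 22) (.lf 22)) (.hs (.lf 16) (.lf 16))) (.hx (.hs (.lf 22) (.lf 22)) (.hs (.lf 16) (.lf 16)))) (.hs (.hx (.hs (.lf 16) (.lf 16)) (.hx (.hs (.lf 22) (.lf 22)) (.hs (.lf 22) (.lf 22)))) (.hx (.hs (.lf 16) (.lf 16)) (.hx (.hs (.lf 22) (.lf 22)) (.hs (.lf 22) (.lf 22)))))) 3526 3797 1933 2900 = true := by decide +kernel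

end Vale.Agent.P154.AF.S501652
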