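import Vale.Agent.P154.AF.D.S518127D

set_option maxRecDepth 100000
set_option linter.defProp false
set_option linter.style.longLine false

namespace Vale.Agent.P154.AF.S518127

open Ck

def p0 : chkZ 518127 326555 pool (.hs (.hx (.hs (.lf 16) (.lf 16)) (.hx (.hs (.lf 22) (.lf 16)) (.hs (.lf 16) (.lf 16)))) (.hx (.hs (.hx (.lf 22) (.lf 22)) (.hs (.lf 16) (.lf 16))) (.hx (.hs (.lf 16) (.lf 16)) (.hs (.lf 16) (.lf 16))))) 0 1085 0 1933 = true := by decide +kernel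
def p1 : chkZ 518127 326555 pool (.hx (.hs (.hs (.lf 16) (.lf 16)) (.hs (.lf 16) (.lf 16))) (.hs (.hx (.lf 16) (.lf 16)) (.hx (.hs (.lf 22) (.lf 22)) (.hs (.lf 16) (.lf 16))))) 1085 1627 0 1933 = true := by decide +kernel
def p2 : chkZ 518127 326555 pool (.hs (.hx (.hs (.hx (.lf 22) (.lf 22)) (.hx (.lf 22) (.lf 22))) (.hx (.hs (.lf 22) (.lf 22)) (.hs (.lf 16) (.lf 16)))) (.hx (.hs (.hx (.lf 16) (.lf 16)) (.hx (.lf 16) (.lf 16))) (.hs (.hx (.lf 16) (.lf 16)) (.hx (.lf 16) (.lf 16))))) 1627 2170 0 1933 = true := by decide +kernel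
def p3 : chkZ 518127 326555 pool (.hx (.hs (.hx (.lf 16) (.lf 16)) (.hx (.hs (.lf 22) (.lf 22)) (.hs (.lf 22) (.lf 22)))) (.hs (.hx (.lf 16) (.lf 16)) (.hx (.hs (.lf 22) (.lf 22)) (.hs (.lf 16) (.lf 16))))) 2170 2441 0 1933 = true := by decide +kernel
def p4 : chkZ 518127 326555 pool (.hs (.hx (.hs (.hx (.lf 22) (.lf 22)) (.hx (.lf 22) (.lf 22))) (.hx (.hs (.lf 22) (.lf 16)) (.hs (.lf 16) (.lf 16)))) (.hx (.hs (.hx (.lf 22) (.lf 22)) (.hx (.lf 22) (.lf 22))) (.hx (.hs (.lf 16) (.lf 16)) (.hs (.lf 16) (.lf 16))))) 2441 2712 0 1933 = true := by decide +kernel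
def p5 : chkZ 518127 326555 pool (.hx (.hs (.hs (.hx (.lf 22) (.lf 22)) (.hx (.lf 22) (.lf 22))) (.hs (.hx (.lf 22) (.lf 22)) (.hx (.lf 22) (.lf 22)))) (.hs (.hx (.hs (.lf 16) (.lf 16)) (.hs (.lf 16) (.hx (.lf 22) (.lf 22)))) (.hx (.hs (.lf 16) (.lf 16)) (.hs (.hx (.lf 22) (.lf 22)) (.hx (.lf 32) (.lf 22)))))) 2712 2983 0 1933 = true := by decide +kernel
def p6 : chkZ 518127 326555 pool (.hx (.hs (.hx (.hs (.lf 22) (.lf 22)) (.hs (.lf 16) (.lf 16))) (.hx (.hs (.lf 22) (.lf 22)) (.hs (.lf 16) (.lf 16)))) (.hs (.hx (.hs (.lf 16) (.lf 16)) (.hs (.hx (.lf 32) (.lf 22)) (.hx (.lf 32) (.lf 22)))) (.hx (.hs (.lf 16) (.lf 16)) (.hx (.hs (.lf 32) (.lf 22)) (.hs (.lf 22) (.lf 22)))))) 2983 3255 0 1933 = true := by decide +kernel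
def p7 : chkZ 518127 326555 pool (.hx (.hs (.hx (.lf 16) (.lf 16)) (.hx (.lf 16) (.lf 16))) (.hs (.hx (.hs (.lf 16) (.lf 16)) (.hx (.lf 16) (.lf 16))) (.hx (.hs (.lf 16) (.lf 16)) (.hx (.lf 16) (.lf 16))))) 3255 3526 0 1933 = true := by decide +kernel
def p8 : chkZ 518127 326555 pool (.hx (.hs (.hx (.hs (.lf 16) (.lf 16)) (.hs (.lf 16) (.lf 16))) (.hx (.hs (.lf 16) (.lf 16)) (.hs (.lf 16) (.lf 16)))) (.hx (.hs (.hs (.lf 16) (.lf 16)) (.hs (.lf 16) (.lf 16))) (.hs (.hx (.hs (.lf 22) (.lf 22)) (.hs (.lf 22) (.lf 22))) (.hx (.hs (.lf 22) (.lf 22)) (.hs (.lf 22) (.lf 22)))))) 3526 3797 0 1933 = true := by decide +kernel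
def p9 : chkZ 518127 326555 pool (.hx (.hs (.hx (.hs (.lf 16) (.lf 16)) (.hs (.lf 16) (.lf 16))) (.hx (.hs (.lf 16) (.lf 16)) (.hs (.lf 16) (.lf 16)))) (.hx (.hs (.hs (.hx (.lf 22) (.lf 22)) (.hx (.lf 22) (.lf 22))) (.hs (.hx (.lf 22) (.lf 22)) (.hx (.lf 22) (.lf 22)))) (.hs (.hx (.hs (.lf 22) (.lf 22)) (.hs (.lf 22) (.lf 22))) (.hx (.hs (.lf 22) (.lf 22)) (.hs (.lf 22) (.lf 22)))))) 3797 4068 0 1933 = true := by decide +kernel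
def p10 : chkZ 518127 326555 pool (.hs (.hx (.hs (.lf 16) (.hx (.lf 32) (.lf 32))) (.hs (.hx (.lf 32) (.lf 32)) (.hx (.lf 32) (.lf 32)))) (.hx (.hs (.hx (.lf 32) (.lf 32)) (.hx (.lf 32) (.lf 32))) (.hs (.hx (.lf 32) (.lf 32)) (.hx (.lf 32) (.lf 32))))) 4068 4340 0 966 = true := by decide +kernel
def p11 : chkZ 518127 326555 pool (.hx (.hs (.hs (.hx (.lf 22) (.lf 22)) (.hx (.lf 22) (.lf 22))) (.hs (.hx (.lf 22) (.lf 22)) (.hx (.lf 22) (.lf 22)))) (.hs (.hx (.hs (.lf 22) (.lf 22)) (.hs (.lf 22) (.hx (.lf 32) (.lf 32)))) (.hx (.hs (.lf 22) (.lf 22)) (.hs (.hx (.lf 32) (.lf 32)) (.hx (.lf 32) (.lf 32)))))) 4068 4340 966 1933 = true := by decide +kernel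
def p12 : chkZ 518127 326555 pool (.hx (.hx (.lf 22) (.lf 22)) (.hx (.lf 16) (.lf 16))) 0 271 1933 2900 = true := by decide +kernel
def p13 : chkZ 518127 326555 pool (.hs (.hx (.hx (.lf 16) (.hx (.lf 22) (.lf 22))) (.hx (.hx (.lf 16) (.lf 16)) (.hx (.hx (.lf 22) (.lf 22)) (.hx (.lf 16) (.hx (.lf 32) (.lf 22)))))) (.hx (.hx (.lf 16) (.hx (.lf 22) (.lf 22))) (.hx (.hx (.lf 16) (.hx (.lf 32) (.lf 22))) (.hx (.hx (.lf 22) (.lf 22)) (.hx (.lf 16) (.hx (.lf 32) (.lf 22))))))) 0 135 2900 3867 = true := by decide +kernel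
def p14 : chkZ 518127 326555 pool (.hx (.hx (.hx (.lf 32) (.lf 22)) (.hx (.lf 22) (.lf 22))) (.hx (.hx (.lf 16) (.hx (.lf 32) (.lf 22))) (.hx (.hx (.lf 22) (.lf 22)) (.hx (.lf 16) (.hx (.lf 32) (.lf 22)))))) 135 271 2900 3867 = true := by decide +kernel
def p15 : chkZ 518127 326555 pool (.hx (.hx (.lf 22) (.lf 22)) (.hx (.lf 16) (.lf 16))) 271 542 1933 2900 = true := by decide +kernel
def p16 : chkZ 518127 326555 pool (.hs (.hx (.hx (.hx (.lf 32) (.lf 22)) (.hx (.lf 22) (.lf 22))) (.hx (.hx (.lf 16) (.hx (.lf 32) (.lf 22))) (.hx (.hx (.lf 22) (.lf 22)) (.hx (.lf 16) (.hx (.lf 32) (.lf 22)))))) (.hx (.hx (.hx (.lf 32) (.lf 22)) (.hx (.lf 22) (.lf 22))) (.hx (.hx (.lf 16) (.hx (.lf 32) (.lf 22))) (.hx (.hx (.lf 22) (.lf 22)) (.hx (.lf 16) (.hx (.lf 32) (.lf 22))))))) 271 542 2900 3867 = true := by decide +kernel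
def p17 : chkZ 518127 326555 pool (.hx (.hs (.hx (.lf 22) (.lf 22)) (.hx (.lf 22) (.lf 22))) (.hx (.hs (.lf 16) (.lf 16)) (.hs (.lf 16) (.lf 16)))) 542 1085 1933 2900 = true := by decide +kernel
def p18 : chkZ 518127 326555 pool (.hs (.hx (.hx (.hx (.lf 22) (.lf 22)) (.hx (.lf 22) (.lf 16))) (.hx (.hx (.lf 16) (.hx (.lf 22) (.lf 22))) (.hx (.hx (.lf 22) (.lf 16)) (.hx (.lf 16) (.hx (.lf 22) (.lf 22)))))) (.hx (.hx (.hx (.lf 22) (.lf 22)) (.hx (.lf 22) (.lf 16))) (.hx (.hx (.lf 16) (.hx (.lf 22) (.lf 22))) (.hx (.hx (.lf 22) (.lf 16)) (.hx (.lf 16) (.hx (.lf 22) (.lf 22))))))) 542 1085 2900 3867 = true := by decide +kernel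
def p19 : chkZ 518127 326555 pool (.hx (.hs (.hx (.lf 16) (.lf 16)) (.hs (.hx (.lf 22) (.lf 22)) (.hx (.lf 22) (.lf 22)))) (.hs (.hx (.lf 16) (.lf 16)) (.hx (.hs (.lf 22) (.lf 16)) (.hs (.lf 16) (.lf 16))))) 1085 1627 1933 2900 = true := by decide +kernel
def p20 : chkZ 518127 326555 pool (.hs (.hx (.hs (.hx (.lf 22) (.lf 22)) (.hx (.lf 22) (.lf 22))) (.hx (.hs (.lf 16) (.lf 16)) (.hs (.lf 16) (.lf 16)))) (.hx (.hs (.hx (.lf 16) (.lf 16)) (.hx (.lf 16) (.lf 16))) (.hs (.hx (.lf 16) (.lf 16)) (.hx (.lf 16) (.lf 16))))) 1627 2170 1933 2900 = true := by decide +kernel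
def p21 : chkZ 518127 326555 pool (.hx (.hx (.hx (.lf 16) (.lf 16)) (.hx (.lf 16) (.lf 16))) (.hx (.hx (.lf 16) (.hx (.lf 16) (.lf 16))) (.hx (.hx (.lf 16) (.lf 16)) (.hx (.lf 16) (.hx (.lf 16) (.lf 16)))))) 1085 1356 2900 3867 = true := by decide +kernel
def p22 : chkZ 518127 326555 pool (.hx (.hx (.hs (.hx (.lf 22) (.lf 22)) (.hx (.lf 22) (.lf 22))) (.hs (.hx (.lf 22) (.lf 22)) (.hx (.lf 22) (.lf 16)))) (.hx (.hx (.hs (.lf 16) (.lf 16)) (.hs (.hx (.lf 22) (.lf 22)) (.hx (.lf 22) (.lf 22)))) (.hx (.hx (.hs (.lf 22) (.lf 22)) (.hs (.lf 16) (.lf 16))) (.hx (.hs (.lf 16) (.lf 16)) (.hs (.hx (.lf 22) (.lf 22)) (.hx (.lf 22) (.lf 22))))))) 1356 1627 2900 3867 = true := by decide +kernel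
def p23 : chkZ 518127 326555 pool (.hs (.hx (.hs (.hx (.lf 22) (.lf 22)) (.hx (.lf 22) (.lf 22))) (.hs (.hx (.lf 22) (.lf 16)) (.hx (.lf 22) (.lf 16)))) (.hx (.hs (.hx (.lf 16) (.lf 16)) (.hx (.lf 16) (.lf 16))) (.hs (.hx (.lf 16) (.lf 16)) (.hx (.lf 16) (.lf 16))))) 1627 2170 2900 3383 = true := by decide +kernel
def p24 : chkZ 518127 326555 pool (.hs (.hx (.hs (.lf 16) (.lf 16)) (.hs (.hx (.lf 22) (.lf 22)) (.hx (.lf 22) (.lf 22)))) (.hx (.hs (.lf 16) (.lf 16)) (.hs (.hx (.lf 16) (.lf 16)) (.hx (.lf 16) (.lf 16))))) 1627 2170 3383 3625 = true := by decide +kernel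
def p25 : chkZ 518127 326555 pool (.hs (.hx (.hx (.hs (.lf 22) (.lf 22)) (.hs (.lf 16) (.lf 16))) (.hx (.hs (.lf 16) (.lf 16)) (.hs (.hx (.lf 22) (.lf 22)) (.hx (.lf 22) (.lf 22))))) (.hx (.hs (.hx (.lf 16) (.lf 16)) (.hx (.lf 16) (.lf 16))) (.hx (.hs (.lf 16) (.lf 16)) (.hs (.hx (.lf 16) (.lf 16)) (.hx (.lf 16) (.lf 16)))))) 1627 2170 3625 3867 = true := by decide +kernel
def p26 : chkZ 518127 326555 pool (.hx (.hs (.hx (.lf 16) (.lf 16)) (.hx (.hs (.lf 22) (.lf 22)) (.hs (.lf 22) (.lf 22)))) (.hs (.hx (.lf 16) (.lf 16)) (.hx (.hs (.lf 16) (.lf 16)) (.hs (.lf 16) (.lf 16))))) 2170 2441 1933 2900 = true := by decide +kernel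
def p27 : chkZ 518127 326555 pool (.hx (.hs (.hs (.hx (.lf 22) (.lf 22)) (.hx (.lf 22) (.lf 22))) (.hs (.hx (.lf 22) (.lf 22)) (.hx (.lf 22) (.lf 22)))) (.hs (.hx (.hs (.lf 16) (.lf 16)) (.hs (.lf 16) (.lf 16))) (.hx (.hs (.lf 16) (.lf 16)) (.hs (.lf 16) (.lf 16))))) 2441 2712 1933 2900 = true := by decide +kernel
def p28 : chkZ 518127 326555 pool (.hx (.hs (.hs (.hx (.lf 22) (.lf 22)) (.hx (.lf 22) (.lf 22))) (.hs (.hx (.lf 22) (.lf 22)) (.hx (.lf 22) (.lf 22)))) (.hs (.hx (.hs (.lf 16) (.lf 16)) (.hs (.lf 16) (.lf 16))) (.hx (.hs (.lf 16) (.lf 16)) (.hs (.lf 16) (.lf 16))))) 2712 2983 1933 2900 = true := by decide +kernel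
def p29 : chkZ 518127 326555 pool (.hx (.hs (.hx (.hs (.lf 22) (.lf 22)) (.hs (.lf 22) (.lf 22))) (.hx (.hs (.lf 22) (.lf 22)) (.hs (.lf 22) (.lf 22)))) (.hs (.hx (.hs (.lf 16) (.lf 16)) (.hs (.lf 16) (.lf 16))) (.hx (.hs (.lf 16) (.lf 16)) (.hs (.lf 16) (.lf 16))))) 2983 3255 1933 2900 = true := by decide +kernel
def p30 : chkZ 518127 326555 pool (.hx (.hs (.hx (.lf 16) (.hs (.lf 22) (.lf 16))) (.hx (.lf 16) (.hs (.lf 16) (.lf 16)))) (.hs (.hx (.hs (.lf 16) (.lf 16)) (.hs (.lf 16) (.lf 16))) (.hx (.hs (.lf 16) (.lf 16)) (.hx (.lf 16) (.hs (.lf 22) (.lf 22)))))) 3255 3526 1933 2900 = true := by decide +kernel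
def p31 : chkZ 518127 326555 pool (.hx (.hs (.hx (.hs (.lf 22) (.lf 22)) (.hs (.lf 16) (.lf 16))) (.hx (.hs (.lf 22) (.lf 22)) (.hs (.lf 16) (.lf 16)))) (.hs (.hx (.hs (.lf 16) (.lf 16)) (.hx (.hs (.lf 22) (.lf 22)) (.hs (.lf 22) (.lf 22)))) (.hx (.hs (.lf 16) (.lf 16)) (.hx (.hs (.lf 22) (.lf 22)) (.hs (.lf 22) (.lf 22)))))) 3526 3797 1933 2900 = true := by decide +kernel
def p32 : chkZ 518127 326555 pool (.hs (.hx (.hs (.lf 16) (.lf 16)) (.hs (.lf 16) (.lf 16))) (.hx (.hs (.lf 16) (.lf 16)) (.hs (.hx (.lf 32) (.lf 22)) (.hx (.lf 22) (.lf 22))))) 3797 4068 1933 2416 = true := by decide +kernel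

end Vale.Agent.P154.AF.S518127
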